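import Vale.Agent.P267W33.Dual
import Vale.Agent.P267.H175.RBetti
import Vale.Agent.P267.H770.Final.Bridge

/-!
# The de Rham theorem in the degrees one and two for compact complex surfaces
-/

open scoped Manifold ContDiff Topology
open Set TopologicalSpace Vale.Agent.P272.K Vale.Agent.P267 Vale.Agent.P267.H175

namespace Vale.Agent.P267W33

theorem ec_of_chartConvex {E : Type} [NormedAddCommGroup E] [NormedSpace ℝ E] {X : Type}
    [TopologicalSpace X] [ChartedSpace E X] {V : Opens X} (h : ChartConvex E V) : EC V := by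
  obtain ⟨e, -, hVe, hconv⟩ := h
  rcases (V : Set X).eq_empty_or_nonempty with h | h
  · exact Or.inl (Opens.ext h)
  · have := hconv.contractibleSpace (h.image e)
    exact Or.inr (e.homeomorphOfImageSubsetSource hVe rfl).contractibleSpace

theorem deRham_real {X : Type} [TopologicalSpace X] [ChartedSpace (Cm 2) X]
    [IsManifold 𝓘(ℝ, Cm 2) ∞ X] [CompactSpace X] [T2Space X] {k : ℕ} (hk : k ≤ 1) :
    ∃ r : ℕ, P267.BettiSucc X k r ∧ betti X (k + 1) = r := by
  obtain ⟨n, U, f, hf, hU⟩ := exists_goodCov (E := Cm 2) (X := X)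
  have hc : ∀ x, ∃ j, x ∈ U j := fun x => by
    obtain ⟨j, hj⟩ := f.exists_pos_of_mem (mem_univ x)
    exact ⟨j, hf j (subset_tsupport _ hj.ne')⟩
  have hF := formPre_good f hf hU
  have hG := singPre_good hc (fun i => ec_of_chartConvex (hU.one i))
    (fun i j => ec_of_chartConvex (hU.two i j)) (fun i j l => ec_of_chartConvex (hU.three i j l))
  obtain ⟨e⟩ := coh_equiv hF hG hk
  obtain ⟨r, ⟨b⟩⟩ : ∃ r : ℕ, Nonempty (Module.Basis (Fin r) ℝ ((formPre f hf).Coh k)) := by
    obtain rfl | rfl : k = 0 ∨ k = 1 := by omega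
    · obtain ⟨r, b, -⟩ := hF.exists_basis1
      exact ⟨r, ⟨b⟩⟩
    · obtain ⟨r, b, -⟩ := hF.exists_basis2
      exact ⟨r, ⟨b⟩⟩
  exact ⟨r, (H175.bettiSucc_iff f hf k r).2 ⟨b⟩, betti_of_basis hc (b.map e)⟩

variable {X : Type} [TopologicalSpace X] [ChartedSpace (ℂ × ℂ) X] [IsManifold 𝓘(ℂ, ℂ × ℂ) ω X]

attribute [local instance] Final.cs

theorem betti_old {k n : ℕ} (h : P267.BettiSucc X k n) : Final.BettiSucc X k n := by
  rw [← H998.bettiSucc_iff] at h
  obtain ⟨a, ha, hc⟩ := h
  refine ⟨fun i => Final.toOld (a i),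
    fun i => ⟨Final.smooth_old (ha i).1, Final.closed_old (ha i).1 (ha i).2⟩, fun c hcs hcc => ?_⟩
  have h1 := hc (Final.toNew c) (Final.smooth_new hcs) (Final.closed_new hcs hcc)
  have h2 : ∀ t : Fin n → ℝ, (∃ b : Final.RForm k X, Final.IsSmooth b ∧
      Final.IsComb c b t fun i => Final.toOld (a i)) ↔
      ∃ d, ExactForm d ∧ H998.IsComb (Final.toNew c) d t a := by
    intro t
    have h3 := Final.comb_iff (c := Final.toNew c) (t := t) (a := fun i => Final.toOld (a i))
    simpa only [Final.toOld_toNew, Final.toNew_toOld] using h3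
  simpa only [h2] using h1

/-- **de Rham's theorem** for the first two Betti numbers of a compact complex surface. -/
theorem deRham [CompactSpace X] [T2Space X] {k : ℕ} (hk : k ≤ 1) :
    (∃ n : ℕ, betti X (k + 1) = n) ∧
      ∀ n : ℕ, betti X (k + 1) = n ↔ Final.BettiSucc X k n := by
  have h1 : IsManifold 𝓘(ℂ, Cm 2) ω X := Final.isManifold_cs
  have h2 := FL.isManifold_real' (X := X) ∞
  obtain ⟨r, hr, hr'⟩ := deRham_real (X := X) hk
  refine ⟨⟨r, hr'⟩, fun n => ⟨fun h => ?_, fun h => ?_⟩⟩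
  · obtain rfl : r = n := by exact_mod_cast hr'.symm.trans h
    exact betti_old hr
  · rw [hr', bettiSucc_unique hr (Final.betti_new h)]

/-- The conjecture with singular Betti numbers follows from the one with de Rham Betti numbers. -/
theorem gss_singular (h : Final.GSSConjecture) [T2Space X] [CompactSpace X] [ConnectedSpace X]
    (h1 : betti X 1 = 1) (hk : Final.KodairaNegInf X) (hm : Final.Minimal X)
    (h2 : 0 < betti X 2) : Final.HasGSS X := by
  obtain ⟨⟨n, hn⟩, h3⟩ := deRham (X := X) (k := 1) le_rfl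
  refine h X n ⟨((deRham (X := X) (k := 0) zero_le_one).2 1).1 (by simpa using h1),
    (h3 n).1 hn, ?_, hk, hm⟩
  have h4 : (0 : Cardinal) < n := hn ▸ h2
  exact_mod_cast h4

end Vale.Agent.P267W33
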