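import Vale.Agent.P267.H770.Final.Stmt
import Mathlib.AlgebraicTopology.SingularHomology.Basic
import Mathlib.Algebra.Category.ModuleCat.Colimits
import Mathlib.Algebra.Category.ModuleCat.Abelian
import Mathlib.LinearAlgebra.Dimension.Basic

/-!
# P267: Betti numbers by singular homology
-/

namespace Vale.Agent.P267W33

/-- The Betti number `b_k(X)`: the rank of the singular homology group `H_k(X; ℤ)`. -/
noncomputable def betti (X : Type) [TopologicalSpace X] (k : ℕ) : Cardinal :=
  Module.rank ℤ (((AlgebraicTopology.singularHomologyFunctor (ModuleCat.{0} ℤ) k).obj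
    (ModuleCat.of ℤ ℤ)).obj (TopCat.of X))

end Vale.Agent.P267W33
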