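import Vale.Agent.P267W33.Small
import Vale.Agent.P267W33.Defs

/-!
# Real singular cohomology is dual to integral singular homology
-/

namespace Vale.Agent.P267W33

open CategoryTheory Limits AlgebraicTopology Simplicial Vale.Agent.P246.T
open scoped TensorProduct

/-- the integers -/
abbrev ZZ : ModuleCat.{0} ℤ := ModuleCat.of ℤ ℤ

/-- the real numbers -/
abbrev RR : ModuleCat.{0} ℤ := ModuleCat.of ℤ ℝ

theorem injective_RR : Injective RR :=
  Module.injective_object_of_injective_module ℤ ℝ (inj := (Module.Baer.of_divisible ℝ).injective)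

/-- The singular chain complex. -/
noncomputable abbrev SC (X : Type) [TopologicalSpace X] : ChainComplex (ModuleCat.{0} ℤ) ℕ :=
  ((singularChainComplexFunctor (ModuleCat.{0} ℤ)).obj ZZ).obj (TopCat.of X)

variable {X : Type} [TopologicalSpace X]

/-- A singular simplex as a chain. -/
noncomputable def smp (n : ℕ) (s : C(Dl (n + 1), X)) : ZZ ⟶ (SC X).X n :=
  (TopCat.toSSet.obj (TopCat.of X)).ιChainComplex
    ((TopCat.toSSetObjEquiv (TopCat.of X) (.op ⦋n⦌)).symm s)

theorem smp_d (n : ℕ) (s : C(Dl (n + 2), X)) : smp (n + 1) s ≫ (SC X).d (n + 1) n =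
      ∑ i : Fin (n + 2), (-1) ^ i.val • smp n (s.comp (face (n + 1) i)) := by
  refine (SSet.ιChainComplex_d (X := TopCat.toSSet.obj (TopCat.of X)) (R := ZZ) _).trans ?_
  refine Finset.sum_congr rfl fun i _ => ?_
  rfl

theorem chain_ext (n : ℕ) {Z : ModuleCat.{0} ℤ} {f g : (SC X).X n ⟶ Z}
    (h : ∀ s : C(Dl (n + 1), X), smp n s ≫ f = smp n s ≫ g) : f = g := by
  refine SSet.chainComplex_hom_ext (X := TopCat.toSSet.obj (TopCat.of X)) (R := ZZ) ?_
  intro x
  have := h (TopCat.toSSetObjEquiv (TopCat.of X) (.op ⦋n⦌) x)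
  simp only [smp, Equiv.symm_apply_apply] at this
  exact this

/-- The value at `1`. -/
noncomputable def ev1 : (ZZ ⟶ RR) →+ ℝ where
  toFun f := f.hom (1 : ℤ)
  map_zero' := rfl
  map_add' _ _ := rfl

theorem ev1_injective : Function.Injective ev1 := fun _ _ h =>
  ModuleCat.hom_ext (LinearMap.ext_ring h)

/-- The cochain of a homomorphism. -/
noncomputable def co (n : ℕ) (φ : (SC X).X n ⟶ RR) : Cc n X := fun s => ev1 (smp n s ≫ φ)

theorem co_injective (n : ℕ) : Function.Injective (co (X := X) n) := fun _ _ h =>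
  chain_ext n fun s => ev1_injective (congrFun h s)

theorem co_surjective (n : ℕ) : Function.Surjective (co (X := X) n) := by
  intro c
  let s : Cofan (fun _ : (TopCat.toSSet.obj (TopCat.of X)) _⦋n⦌ => ZZ) :=
    Cofan.mk RR fun x => ModuleCat.ofHom
      (LinearMap.toSpanSingleton ℤ ℝ (c (TopCat.toSSetObjEquiv (TopCat.of X) (.op ⦋n⦌) x)))
  refine ⟨(SSet.isColimitChainComplexXCofan (TopCat.toSSet.obj (TopCat.of X)) ZZ n).desc s,
    funext fun σ => ?_⟩
  refine (congrArg ev1 ((SSet.isColimitChainComplexXCofan (TopCat.toSSet.obj (TopCat.of X)) ZZ n).fac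
    s ⟨(TopCat.toSSetObjEquiv (TopCat.of X) (.op ⦋n⦌)).symm σ⟩)).trans ?_
  change (1 : ℤ) • c (TopCat.toSSetObjEquiv (TopCat.of X) (.op ⦋n⦌)
    ((TopCat.toSSetObjEquiv (TopCat.of X) (.op ⦋n⦌)).symm σ)) = c σ
  rw [Equiv.apply_symm_apply, one_smul]

theorem co_d (n : ℕ) (φ : (SC X).X n ⟶ RR) : co (n + 1) ((SC X).d (n + 1) n ≫ φ) = cob n (co n φ) := by
  funext s
  rw [cob_apply, co, ← Category.assoc, smp_d, Preadditive.sum_comp, map_sum]
  refine Finset.sum_congr rfl fun i _ => ?_
  rw [Preadditive.zsmul_comp, map_zsmul, zsmul_eq_mul]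
  push_cast
  rfl

/-- Multiplication by a real number. -/
noncomputable def mul (r : ℝ) : RR ⟶ RR := ModuleCat.ofHom ((LinearMap.lsmul ℝ ℝ r).restrictScalars ℤ)

theorem co_mul (n : ℕ) (φ : (SC X).X n ⟶ RR) (r : ℝ) : co n (φ ≫ mul r) = r • co n φ := rfl

theorem co_add (n : ℕ) (φ ψ : (SC X).X n ⟶ RR) : co n (φ + ψ) = co n φ + co n ψ := rfl

theorem co_zero (n : ℕ) : co n (0 : (SC X).X n ⟶ RR) = 0 := rfl

/-- The homomorphism of a cochain. -/
noncomputable def ho (n : ℕ) (c : Cc n X) : (SC X).X n ⟶ RR := (co_surjective n c).choose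

theorem co_ho (n : ℕ) (c : Cc n X) : co n (ho n c) = c := (co_surjective n c).choose_spec

theorem d_ho (n : ℕ) (z : LinearMap.ker (cob (X := X) n)) :
    (SC X).d (n + 1) n ≫ ho n z.1 = 0 :=
  co_injective _ (by rw [co_d, co_ho, co_zero]; exact z.2)

/-- The homomorphism on opcycles defined by a cocycle. -/
noncomputable def opc (n : ℕ) (z : LinearMap.ker (cob (X := X) n)) : (SC X).opcycles n ⟶ RR :=
  (SC X).descOpcycles (ho n z.1) (n + 1) (by simp) (d_ho n z)

theorem p_opc (n : ℕ) (z : LinearMap.ker (cob (X := X) n)) :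
    (SC X).pOpcycles n ≫ opc n z = ho n z.1 := (SC X).p_descOpcycles _ _ _ _

theorem opc_add (n : ℕ) (z w : LinearMap.ker (cob (X := X) n)) :
    opc n (z + w) = opc n z + opc n w := by
  rw [← cancel_epi ((SC X).pOpcycles n), Preadditive.comp_add, p_opc, p_opc, p_opc]
  exact co_injective _ (by rw [co_add, co_ho, co_ho, co_ho]; rfl)

theorem opc_smul (n : ℕ) (r : ℝ) (z : LinearMap.ker (cob (X := X) n)) :
    opc n (r • z) = opc n z ≫ mul r := by
  rw [← cancel_epi ((SC X).pOpcycles n), ← Category.assoc, p_opc, p_opc]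
  exact co_injective _ (by rw [co_mul, co_ho, co_ho]; rfl)

/-- Evaluation of cocycles on homology classes. -/
noncomputable def evH (n : ℕ) :
    LinearMap.ker (cob (X := X) n) →ₗ[ℝ] ((SC X).homology n →+ ℝ) where
  toFun z := ((SC X).homologyι n ≫ opc n z).hom.toAddMonoidHom
  map_add' z w := by
    rw [opc_add]
    rfl
  map_smul' r z := by
    rw [opc_smul]
    rfl

theorem exists_hom (H : ModuleCat.{0} ℤ) (f : H →+ ℝ) :
    ∃ g : H ⟶ RR, g.hom.toAddMonoidHom = f :=
  ⟨ModuleCat.ofHom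
    { toFun := f
      map_add' := f.map_add
      map_smul' := fun m x => map_intCast_smul f ℤ ℤ m x }, rfl⟩

theorem evH_surjective (n : ℕ) : Function.Surjective (evH (X := X) n) := by
  have := injective_RR
  intro f
  obtain ⟨g, rfl⟩ := exists_hom _ f
  let ψ : (SC X).opcycles n ⟶ RR := Injective.factorThru g ((SC X).homologyι n)
  let z : LinearMap.ker (cob (X := X) n) := ⟨co n ((SC X).pOpcycles n ≫ ψ), by
    rw [LinearMap.mem_ker, ← co_d, (SC X).d_pOpcycles_assoc, zero_comp, co_zero]⟩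
  have h1 : opc n z = ψ := by
    rw [← cancel_epi ((SC X).pOpcycles n), p_opc]
    exact co_injective _ (co_ho _ _)
  refine ⟨z, ?_⟩
  change (((SC X).homologyι n ≫ opc n z).hom.toAddMonoidHom) = _
  rw [h1, Injective.comp_factorThru]

theorem evH_eq_zero (k : ℕ) (z : LinearMap.ker (cob (X := X) (k + 1))) :
    evH (k + 1) z = 0 ↔ ∃ b, cob k b = z.1 := by
  have := injective_RR
  have h0 : evH (k + 1) z = 0 ↔ (SC X).homologyι (k + 1) ≫ opc (k + 1) z = 0 :=
    ⟨fun h => ModuleCat.hom_ext (LinearMap.ext fun x => DFunLike.congr_fun h x), fun h => by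
      change (((SC X).homologyι (k + 1) ≫ opc (k + 1) z).hom.toAddMonoidHom) = 0
      rw [h]
      rfl⟩
  rw [h0]
  constructor
  · intro h
    have hS : (ShortComplex.mk _ _ ((SC X).homologyι_comp_fromOpcycles (k + 1) k)).Exact :=
      ShortComplex.exact_of_f_is_kernel _ ((SC X).homologyIsKernel (k + 1) k (by simp))
    refine ⟨co k (hS.descToInjective (opc (k + 1) z) h), ?_⟩
    have h1 : (SC X).fromOpcycles (k + 1) k ≫ hS.descToInjective (opc (k + 1) z) h =
        opc (k + 1) z := hS.comp_descToInjective _ h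
    rw [← co_d, ← (SC X).p_fromOpcycles, Category.assoc, h1, p_opc, co_ho]
  · rintro ⟨b, hb⟩
    exact (SC X).homologyι_descOpcycles_eq_zero_of_boundary (ho (k + 1) z.1) (k + 2) (by simp)
      (ho k b) (co_injective _ (by rw [co_d, co_ho, co_ho, hb]))

/-- The dimension of the space of real characters of an abelian group is its rank. -/
theorem rank_of_basis {A : Type} [AddCommGroup A] [inst : Module ℤ A] {r : ℕ}
    (b : Module.Basis (Fin r) ℝ (A →+ ℝ)) : Module.rank ℤ A = r := by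
  obtain rfl : inst = AddCommGroup.toIntModule A := (AddCommGroup.uniqueIntModule).uniq inst
  let e : (A →+ ℝ) ≃ₗ[ℝ] Module.Dual ℝ (ℝ ⊗[ℤ] A) :=
    (addMonoidHomLequivInt ℝ).trans (LinearMap.liftBaseChangeEquiv ℝ)
  have h1 : Module.Finite ℝ (Module.Dual ℝ (ℝ ⊗[ℤ] A)) := Module.Finite.of_basis (b.map e)
  have h2 : Module.Finite ℝ (ℝ ⊗[ℤ] A) := (Module.finite_dual_iff ℝ).1 h1
  have h3 : Module.finrank ℝ (ℝ ⊗[ℤ] A) = r := by
    rw [← Subspace.dual_finrank_eq, Module.finrank_eq_card_basis (b.map e), Fintype.card_fin]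
  rw [← (TensorProduct.isBaseChange ℤ A ℝ).rank_eq, ← Module.finrank_eq_rank, h3]

/-- The Betti numbers are the dimensions of the cohomology of the small cochains. -/
theorem betti_of_basis {ι : Type} {U : ι → TopologicalSpace.Opens X} (hc : ∀ x, ∃ j, x ∈ U j)
    {k r : ℕ} (b : Module.Basis (Fin r) ℝ ((singPre U).Coh k)) : betti X (k + 1) = r := by
  obtain ⟨e⟩ := equiv_of_ker (toCoh U k) (evH (k + 1)) (toCoh_surjective hc k) (evH_surjective _)
    fun z => (toCoh_eq_zero hc k z).trans (evH_eq_zero k z).symm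
  exact rank_of_basis (A := (SC X).homology (k + 1)) (b.map e)

end Vale.Agent.P267W33
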