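import Vale.Agent.P267.H815.Add
import Vale.Agent.P267.H823.PL6
import Vale.Agent.P267.H823.PL9
import Vale.Agent.P267.H205.P1i

/-!
# The self-intersection number of a smooth rational curve is the degree of `𝒪(D)` on the curve
-/

open scoped Manifold ContDiff ComplexConjugate Matrix Real Topology
open MeasureTheory Set Filter

namespace Vale.Agent.P267W33

open Vale.Agent.P267 Vale.Agent.P267.FL Vale.Agent.P267.H332 Vale.Agent.P267.H757
open Vale.Agent.P267.H823.PL Vale.Agent.P267.H451 Vale.Agent.P267.H62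

variable {X : Type} [TopologicalSpace X] [ChartedSpace C2 X]

/-- The coefficients `c x` on `f ⁻¹' (D.U x)` of a nowhere zero holomorphic section of the pull-back
of `𝒪(D)` by `f`. -/
structure CF (D : EffDiv X) (f : ℂ → X) (c : X → ℂ → ℂ) : Prop where
  hol : ∀ x, DifferentiableOn ℂ (c x) (f ⁻¹' D.U x)
  ne : ∀ x z, f z ∈ D.U x → c x z ≠ 0
  chg : ∀ x x' z, f z ∈ D.U x → f z ∈ D.U x' → c x z = trf D x x' (f z) * c x' z

variable [IsManifold 𝓘(ℂ, C2) ω X]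

theorem cf_log {D : EffDiv X} {h : X → X → ℝ} {N : X → ℝ} (hr : Rep D h N) {f : ℂ → X}
    (hf : MDifferentiable 𝓘(ℂ) 𝓘(ℂ, C2) f) {c : X → ℂ → ℂ} (hc : CF D f c) (t : ℂ) :
    ContDiffAt ℝ 2 (fun s => ((Real.log (‖c (f s) s‖ ^ 2 * h (f s) (f s)) : ℝ) : ℂ)) t ∧
    D1 (Db fun s => ((Real.log (‖c (f s) s‖ ^ 2 * h (f s) (f s)) : ℝ) : ℂ)) t =
      -pbC f (cF N) t := by
  set x := f t with hx
  set e := chartAt C2 x with he'
  have he : e ∈ atlas C2 X := chart_mem_atlas C2 x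
  have ht : f t ∈ e.source := mem_chart_source C2 x
  have hev := curve_eventually hf he ht
  have hl := hr.locRep x
  have hU : IsOpen (f ⁻¹' D.U x) := (D.isOpen x).preimage hf.continuous
  have hevU : ∀ᶠ s in 𝓝 t, f s ∈ D.U x := hU.mem_nhds (D.mem x)
  have hmd : ∀ᶠ s in 𝓝 t, DifferentiableAt ℂ (c x) s :=
    hevU.mono fun s hs => (hc.hol x).differentiableAt (hU.mem_nhds hs)
  have hm0 : c x t ≠ 0 := hc.ne x t (D.mem x)
  set ψ : X → ℝ := fun y => -Real.log (h x y) with hψ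
  have hlog : (fun s => ((Real.log (‖c (f s) s‖ ^ 2 * h (f s) (f s)) : ℝ) : ℂ)) =ᶠ[𝓝 t]
      fun s => ((Real.log (‖c x s‖ ^ 2) : ℝ) : ℂ) - (fun y => (ψ (e.symm y) : ℂ)) (e (f s)) := by
    filter_upwards [hevU, hev] with s h2 h3
    have h4 := norm_pos_iff.2 (hc.ne x s h2)
    have h5 := hr.metric.pos x _ h2
    have h6 : ‖c (f s) s‖ ^ 2 * h (f s) (f s) = ‖c x s‖ ^ 2 * h x (f s) := by
      rw [IsMetric.ratio hr.metric h2 (D.mem (f s)), hc.chg x (f s) s h2 (D.mem _), norm_mul]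
      ring
    rw [h6, Real.log_mul (by positivity) h5.ne']
    simp only [e.left_inv h3.1, hψ]
    push_cast
    ring
  have hψe : ContDiffAt ℝ 2 (fun y => (ψ (e.symm y) : ℂ)) (e (f t)) :=
    (lr_cda hl he (e.map_source ht) (by rw [e.left_inv ht]; exact D.mem x)).of_le
      (WithTop.coe_le_coe.2 le_top)
  have hce : ContDiffAt ℝ 2 (fun s => e (f s)) t :=
    (contDiffAt_curve hf he ht).of_le (WithTop.coe_le_coe.2 le_top)
  have s1 := log_norm_sq_smooth hmd hm0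
  have s2 : ContDiffAt ℝ 2 (fun s => (fun y => (ψ (e.symm y) : ℂ)) (e (f s))) t :=
    ContDiffAt.comp t hψe hce
  refine ⟨(s1.sub s2).congr_of_eventuallyEq hlog, ?_⟩
  have hdd : ∀ {u : ℂ → ℂ}, ContDiffAt ℝ 2 u t → ∀ᶠ s in 𝓝 t, DifferentiableAt ℝ u s := fun hu =>
    (hu.eventually (by simp)).mono fun s hs => hs.differentiableAt (by norm_num)
  have hDb : (Db fun s => ((Real.log (‖c (f s) s‖ ^ 2 * h (f s) (f s)) : ℝ) : ℂ)) =ᶠ[𝓝 t]
      fun s => Db (fun s => ((Real.log (‖c x s‖ ^ 2) : ℝ) : ℂ)) s -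
        Db (fun s => (fun y => (ψ (e.symm y) : ℂ)) (e (f s))) s := by
    filter_upwards [hlog.eventually_nhds, hdd s1, hdd s2] with s h1 h2 h3
    rw [Db_congr h1, Db_sub h2 h3]
  have hDd : ∀ {u : ℂ → ℂ}, ContDiffAt ℝ 2 u t → DifferentiableAt ℝ (Db u) t := by
    intro u hu
    have h1 : ContDiffAt ℝ 1 (fderiv ℝ u) t := hu.fderiv_right (by norm_num)
    have h2 : ContDiffAt ℝ 1 (Db u) t := contDiffAt_const.mul ((h1.clm_apply contDiffAt_const).add
      (contDiffAt_const.mul (h1.clm_apply contDiffAt_const)))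
    exact h2.differentiableAt (by norm_num)
  rw [D1_congr hDb, D1_sub (hDd s1) (hDd s2), log_norm_sq_harmonic hmd hm0, zero_sub,
    D1_Db_curve (u := fun y => (ψ (e.symm y) : ℂ)) (c := fun s => e (f s)) hψe
      (hev.mono fun s hs => hs.2), ← curvN_eq hl (D.mem x)]
  rfl

variable [T2Space X] [CompactSpace X]

/-- The degree of `𝒪(D)` on a smooth rational curve `D` is the integral of `c₁²`. -/
theorem selfInt_of_cf {D : EffDiv X} {φ : P1Map X}
    (hred : ∀ x, ∀ y ∈ D.U x, D.f x y = 0 → mfderiv 𝓘(ℂ, C2) 𝓘(ℂ) (D.f x) y ≠ 0)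
    (hinj : Function.Injective φ.f₀) (hs : D.supp = φ.image) {c₀ c₁ : X → ℂ → ℂ}
    (h₀ : CF D φ.f₀ c₀) (h₁ : CF D φ.f₁ c₁) {k : ℤ}
    (hg : ∀ z, z ≠ 0 → c₀ (φ.f₀ z) z = z ^ (-k) * c₁ (φ.f₀ z) z⁻¹) : D.SelfInt k := by
  obtain ⟨n, ⟨B⟩⟩ := exists_divLB D
  have hr := H815.divLB_rep B
  have hN := hr.isNormFn
  have hz : ∀ x, ‖B.s x‖ ^ 2 = 0 ↔ x ∈ φ.image := fun x => by
    rw [← hs, hr.supp]
    rfl
  have hc : CurveOf (fun x => ‖B.s x‖ ^ 2) φ.f₀ {φ.f₁ 0} :=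
    ⟨φ.holo₀, hinj, countable_singleton _, fun t => (hz _).2 (Or.inl ⟨t, rfl⟩),
      fun x hx => (hz x).1 hx⟩
  have hPL := (poincare_lelong hN hc (fun p hp => ⟨_, _, _, D.mem p, hr.locRep p,
    hred p p (D.mem p) (show p ∈ D.supp by rw [hs]; exact (hz p).1 hp)⟩) (cF_smooth hN)
    (cF_closed hN) isClosed_closure.isCompact).2
  have hre : ∀ {u : ℂ → ℝ}, (∀ t, ContDiffAt ℝ 2 (fun s => (u s : ℂ)) t) → ContDiff ℝ 2 u :=
    fun hu => contDiff_iff_contDiffAt.2 fun t =>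
      (Complex.reCLM.contDiff (n := 2)).contDiffAt.comp t (hu t)
  have hgb := gauss_bonnet (hre fun t => (cf_log hr φ.holo₀ h₀ t).1)
    (hre fun t => (cf_log hr φ.holo₁ h₁ t).1) (c := 0) (k := -k) fun t ht => by
      have h2 : 0 < ‖t‖ := norm_pos_iff.2 ht
      have h3 := norm_pos_iff.2 (h₁.ne _ t⁻¹ (D.mem _))
      have h4 := hr.metric.pos _ _ (D.mem (φ.f₁ t⁻¹))
      rw [hg t ht, φ.glue t ht, norm_mul, mul_pow, mul_assoc, Real.log_mul (by
        rw [norm_zpow]; positivity) (by positivity), norm_zpow, Real.log_pow, Real.log_pow,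
        Real.log_zpow]
      push_cast
      ring
  simp only [fun t => (cf_log hr φ.holo₀ h₀ t).2] at hgb
  rw [integral_neg] at hgb
  rw [B.selfInt_iff]
  change FL.intX ((B.L.chern B.a).wedge (B.L.chern B.a)) = _
  rw [← (H821.lbnf B.hol B.s_reg B.s_sec B.s_hol (H815.dense_ne B)).2, hPL, neg_eq_iff_eq_neg.1 hgb]
  push_cast
  ring

omit [T2Space X] [CompactSpace X] in
theorem v_change {D : EffDiv X} {ι : Type} [Fintype ι] [DecidableEq ι] (B : DivLB D ι) {x x' y : X}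
    (hy : y ∈ D.U x) (hy' : y ∈ D.U x') : B.v x' y = trf D x x' y • B.v x y := by
  ext i
  have hc : ∀ {x : X}, y ∈ D.U x → ContinuousAt (fun z => B.v x z i) y := fun hx =>
    (EuclideanSpace.proj (𝕜 := ℂ) i).continuous.continuousAt.comp (B.frameAt hx).sm.continuousAt
  refine eq_of_frequently (f := fun z => B.v x' z i) (g := fun z => trf D x x' z * B.v x z i)
    (hc hy') ((trf_hol D hy hy').sm.continuousAt.mul (hc hy)) ?_
  refine ((D.ne x' y hy').and_eventually (((D.isOpen x).inter (D.isOpen x')).mem_nhds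
    ⟨hy, hy'⟩)).mono ?_
  rintro z ⟨hz, hz1, hz2⟩
  have e1 := (B.s_eq x' z hz2).symm.trans (B.s_eq x z hz1)
  rw [trf_eq D hz1 hz2, mul_comm, mul_smul] at e1
  exact congrArg (fun w : EuclideanSpace ℂ ι => w i) (smul_right_injective _ hz e1)

omit [T2Space X] [CompactSpace X] in
theorem cf_of_frame {D : EffDiv X} {ι : Type} [Fintype ι] [DecidableEq ι] (B : DivLB D ι)
    {f : ℂ → X} (hf : MDifferentiable 𝓘(ℂ) 𝓘(ℂ, C2) f) {s : ℂ → EuclideanSpace ℂ ι}
    (hs : (H205.P1.pullC B.L B.hol.smooth hf).IsSec s) (h0 : ∀ z, s z ≠ 0)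
    (hD : ∀ z, (H205.P1.pullC B.L B.hol.smooth hf).D s z = 0) :
    ∃ c : X → ℂ → ℂ, CF D f c ∧ ∀ x z, f z ∈ D.U x → s z = c x z • B.v x (f z) := by
  have key : ∀ x, ∃ g : ℂ → ℂ, DifferentiableOn ℂ g (f ⁻¹' D.U x) ∧
      ∀ z ∈ f ⁻¹' D.U x, s z = g z • B.v x (f z) := by
    intro x
    have hloc : ∀ z ∈ f ⁻¹' D.U x, (fun y => B.v x (f y)) =ᶠ[𝓝 z]
        fun y => loc0 0 (chartAt C2 (f z)) (B.v x) (chartAt C2 (f z) (f y)) := by
      intro z _
      filter_upwards [(hf z).continuousAt.preimage_mem_nhds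
        ((chartAt C2 (f z)).open_source.mem_nhds (mem_chart_source C2 (f z)))] with y hy
      rw [loc0_source hy]
      simp
    have hsm : ∀ z ∈ f ⁻¹' D.U x, ContDiffAt ℝ ∞ (loc0 0 (chartAt C2 (f z)) (B.v x))
        (chartAt C2 (f z) (f z)) := by
      intro z hz
      rw [LB.loc0_zero]
      exact B.v_reg x _ hz _ (chart_mem_atlas C2 _) (mem_chart_source C2 _)
    refine (H205.P1.pullC B.L B.hol.smooth hf).exists_quot ((D.isOpen x).preimage hf.continuous)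
      hs.1.contDiffOn (fun z hz => ?_) (fun z _ => hs.2 z) (fun z hz => B.v_sec x _ hz)
      (fun z hz => B.v_ne x _ hz) (fun z _ => hD z) fun z hz => ?_
    · exact (((hsm z hz).comp z (contDiffAt_curve hf (chart_mem_atlas C2 _)
        (mem_chart_source C2 _))).congr_of_eventuallyEq (hloc z hz)).contDiffWithinAt
    · have he := chart_mem_atlas C2 (f z)
      have hz' := mem_chart_source C2 (f z)
      have hd := (hsm z hz).differentiableAt (by simp)
      have h1 : H205.P1.db (fun y => B.v x (f y)) z = H205.P1.pulla (dbar0 0 (B.v x)) f z := by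
        rw [H205.P1.db_congr (hloc z hz), H205.P1.db_comp_curve hd
          (H205.P1.curve_diff (hf z) he hz'), H205.P1.pulla_eq (hf z) he hz']
        refine Finset.sum_congr rfl fun i _ => ?_
        rw [loc1_dbar0 he ((chartAt C2 (f z)).map_source hz') hd]
      have h2 : (H205.P1.pullC B.L B.hol.smooth hf).D (fun y => B.v x (f y)) z =
          H205.P1.pulla (B.L.db0 B.a 0 (B.v x)) f z := by
        unfold H205.P1.LC.D
        rw [h1]
        change LB.actL (B.L.P (f z)) (H205.P1.pulla (dbar0 0 (B.v x)) f z) +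
          H205.P1.pulla B.a f z • B.v x (f z) = _
        unfold H205.P1.pulla LB.db0
        simp only [map_sum, map_smul, LB.actL_apply, Finset.sum_smul, ← Finset.sum_add_distrib]
        refine Finset.sum_congr rfl fun p _ => ?_
        simp only [smul_add, smul_smul, smul_eq_mul]
      rw [h2]
      unfold H205.P1.pulla
      simp [B.v_hol x _ hz]
  choose c hc1 hc2 using key
  refine ⟨c, ⟨hc1, fun x z hz h => h0 z ?_, fun x x' z hz hz' => ?_⟩, hc2⟩
  · rw [hc2 x z hz, h, zero_smul]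
  · have e1 := (hc2 x z hz).symm.trans (hc2 x' z hz')
    rw [v_change B hz hz', smul_smul, mul_comm] at e1
    exact smul_left_injective ℂ (B.v_ne x _ hz) e1

/-- The pull-back of `𝒪(D)` to `ℙ¹` is some `𝒪(k)`. -/
theorem exists_cf (D : EffDiv X) (φ : P1Map X) : ∃ (k : ℤ) (c₀ c₁ : X → ℂ → ℂ),
    CF D φ.f₀ c₀ ∧ CF D φ.f₁ c₁ ∧
      ∀ z, z ≠ 0 → c₀ (φ.f₀ z) z = z ^ (-k) * c₁ (φ.f₀ z) z⁻¹ := by
  obtain ⟨n, ⟨B⟩⟩ := exists_divLB D
  obtain ⟨k, s₀, s₁, hs⟩ := (H205.P1.pull B.L B.hol.smooth φ).exists_frames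
  obtain ⟨c₀, h₀, e₀⟩ := cf_of_frame B φ.holo₀ hs.sec₀ hs.ne₀ hs.hol₀
  obtain ⟨c₁, h₁, e₁⟩ := cf_of_frame B φ.holo₁ hs.sec₁ hs.ne₁ hs.hol₁
  refine ⟨k, c₀, c₁, h₀, h₁, fun z hz => ?_⟩
  have h2 := hs.glue z hz
  rw [e₀ _ z (D.mem _), e₁ (φ.f₀ z) z⁻¹ (by rw [← φ.glue z hz]; exact D.mem _), ← φ.glue z hz,
    smul_smul] at h2
  exact smul_left_injective ℂ (B.v_ne _ _ (D.mem _)) h2

end Vale.Agent.P267W33
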