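import Vale.Agent.P267.H175.Nerve1
import Vale.Agent.P246.T.SD
import Vale.Agent.P246.T.PR

/-!
# Small singular cochains as a complex of presheaves with averaging operators
-/

namespace Vale.Agent.P267W33

open TopologicalSpace Set Vale.Agent.P246.T Vale.Agent.P267.H175

variable {X : Type} [TopologicalSpace X] {ι : Type}

/-- Real singular `n`-cochains. -/
abbrev Cc (n : ℕ) (X : Type) [TopologicalSpace X] : Type := C(Dl (n + 1), X) → ℝ

/-- The coboundary of singular cochains. -/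
noncomputable def cob (n : ℕ) : Cc n X →ₗ[ℝ] Cc (n + 1) X where
  toFun c σ := ∑ i : Fin (n + 2), (-1 : ℝ) ^ (i : ℕ) * c (σ.comp (face (n + 1) i))
  map_add' a b := by
    funext σ
    simp only [Pi.add_apply, mul_add, Finset.sum_add_distrib]
  map_smul' r a := by
    funext σ
    simp only [Pi.smul_apply, smul_eq_mul, RingHom.id_apply, Finset.mul_sum]
    exact Finset.sum_congr rfl fun i _ => by ring

theorem cob_apply {n : ℕ} (c : Cc n X) (σ : C(Dl (n + 2), X)) :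
    cob n c σ = ∑ i : Fin (n + 2), (-1 : ℝ) ^ (i : ℕ) * c (σ.comp (face (n + 1) i)) := rfl

/-- A cochain as a homomorphism on chains. -/
noncomputable def lin {n : ℕ} (c : Cc n X) : Ch n X →ₗ[ℤ] ℝ := Finsupp.linearCombination ℤ c

theorem lin_single {n : ℕ} (c : Cc n X) (σ : C(Dl (n + 1), X)) (a : ℤ) :
    lin c (Finsupp.single σ a) = (a : ℝ) * c σ := by
  rw [lin, Finsupp.linearCombination_single, zsmul_eq_mul]

theorem lin_one {n : ℕ} (c : Cc n X) (σ : C(Dl (n + 1), X)) :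
    lin c (Finsupp.single σ 1) = c σ := by
  rw [lin_single, Int.cast_one, one_mul]

theorem lin_bd {n : ℕ} (c : Cc n X) (z : Ch (n + 1) X) : lin c (bd n z) = lin (cob n c) z := by
  have : (lin c).comp (bd n) = lin (cob n c) := by
    apply SD.lin_ext
    intro σ
    rw [LinearMap.comp_apply, bd_single, map_sum, lin_one, cob_apply]
    refine Finset.sum_congr rfl fun i _ => ?_
    rw [lin_single]
    push_cast
    ring
  exact LinearMap.congr_fun this z

theorem cob_cob {n : ℕ} (c : Cc n X) : cob (n + 1) (cob n c) = 0 := by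
  funext σ
  rw [← lin_one (cob (n + 1) (cob n c)), ← lin_bd, ← lin_bd, SD.bd_bd, map_zero]
  rfl

theorem lin_zero_of {n : ℕ} {c : Cc n X} {S : Set C(Dl (n + 1), X)} (h : ∀ σ ∈ S, c σ = 0)
    {z : Ch n X} (hz : z ∈ Finsupp.supported ℤ ℤ S) : lin c z = 0 := by
  rw [lin, Finsupp.linearCombination_apply, Finsupp.sum]
  refine Finset.sum_eq_zero fun σ hσ => ?_
  rw [h σ (hz hσ), smul_zero]

/-- The simplices in `V` which are contained in a member of the cover `U`. -/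
def Sm (U : ι → Opens X) (n : ℕ) (V : Opens X) : Set C(Dl (n + 1), X) :=
  {σ | (∃ j, ∀ x, σ x ∈ U j) ∧ ∀ x, σ x ∈ V}

variable {U : ι → Opens X}

theorem Sm.face {n : ℕ} {V : Opens X} {σ : C(Dl (n + 2), X)} (h : σ ∈ Sm U (n + 1) V)
    (i : Fin (n + 2)) : σ.comp (face (n + 1) i) ∈ Sm U n V :=
  ⟨h.1.imp fun _ hj _ => hj _, fun _ => h.2 _⟩

/-- Extension by zero of a small cochain. -/
noncomputable def ext0 {n : ℕ} {V : Opens X} (ω : Sm U n V → ℝ) : Cc n X :=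
  Function.extend Subtype.val ω 0

theorem ext0_apply {n : ℕ} {V : Opens X} (ω : Sm U n V → ℝ) {σ : C(Dl (n + 1), X)}
    (h : σ ∈ Sm U n V) : ext0 ω σ = ω ⟨σ, h⟩ :=
  Subtype.val_injective.extend_apply ω 0 ⟨σ, h⟩

/-- The coboundary of small cochains. -/
noncomputable def dS {n : ℕ} {V : Opens X} : (Sm U n V → ℝ) →ₗ[ℝ] (Sm U (n + 1) V → ℝ) where
  toFun c σ := ∑ i : Fin (n + 2), (-1 : ℝ) ^ (i : ℕ) * c ⟨_, Sm.face σ.2 i⟩
  map_add' a b := by
    funext σ
    simp only [Pi.add_apply, mul_add, Finset.sum_add_distrib]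
  map_smul' r a := by
    funext σ
    simp only [Pi.smul_apply, smul_eq_mul, RingHom.id_apply, Finset.mul_sum]
    exact Finset.sum_congr rfl fun i _ => by ring

theorem dS_apply {n : ℕ} {V : Opens X} (c : Sm U n V → ℝ) (σ : Sm U (n + 1) V) :
    dS c σ = ∑ i : Fin (n + 2), (-1 : ℝ) ^ (i : ℕ) * c ⟨_, Sm.face σ.2 i⟩ := rfl

theorem cob_ext0 {n : ℕ} {V : Opens X} (c : Sm U n V → ℝ) (σ : Sm U (n + 1) V) :
    cob n (ext0 c) σ.1 = dS c σ := by
  rw [cob_apply, dS_apply]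
  exact Finset.sum_congr rfl fun i _ => by rw [ext0_apply c (Sm.face σ.2 i)]

/-- Restriction of cochains to the small simplices. -/
def rs {n : ℕ} {V : Opens X} : Cc n X →ₗ[ℝ] (Sm U n V → ℝ) := LinearMap.funLeft ℝ ℝ Subtype.val

theorem rs_apply {n : ℕ} {V : Opens X} (c : Cc n X) (σ : Sm U n V) : rs c σ = c σ.1 := rfl

theorem dS_rs {n : ℕ} {V : Opens X} (c : Cc n X) :
    dS (rs (U := U) (V := V) c) = rs (cob n c) := rfl

theorem rs_ext0 {n : ℕ} {V : Opens X} (c : Sm U n V → ℝ) : rs (ext0 c) = c :=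
  funext fun σ => ext0_apply c σ.2

theorem dS_dS {n : ℕ} {V : Opens X} (c : Sm U n V → ℝ) : dS (dS c) = 0 := by
  rw [← rs_ext0 c, dS_rs, dS_rs, cob_cob, map_zero]

variable (U) in
/-- The complex of small singular cochains. -/
noncomputable def singPre : FormPre.{0, 0, 0} X U where
  A k V := Sm U k V → ℝ
  res h := LinearMap.funLeft ℝ ℝ fun σ => ⟨σ.1, σ.2.1, fun x => h (σ.2.2 x)⟩
  res_self _ _ := rfl
  res_res _ _ _ := rfl
  d := dS
  d_d := dS_dS
  res_d _ _ := rfl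
  avg :=
    { toFun := fun ω σ => ω σ.2.1.choose ⟨σ.1, σ.2.1, fun x => ⟨σ.2.1.choose_spec x, σ.2.2 x⟩⟩
      map_add' := fun _ _ => rfl
      map_smul' := fun _ _ => rfl }
  avg_res _ := rfl
  res_avg _ _ := rfl
  cst := LinearMap.pi fun _ => LinearMap.id
  d_cst r := by
    funext σ
    rw [dS_apply, Fin.sum_univ_two]
    simp
  res_cst _ _ := rfl

/-! ### the Poincare lemma on contractible open sets -/

section Contr

variable {V : Opens X} {x0 : V}
  (H : ContinuousMap.Homotopy (ContinuousMap.id V) (ContinuousMap.const V x0))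

/-- The contraction of a simplex in `V`. -/
def hom {n : ℕ} (σ : Sm U n V) : Hm (n + 1) X :=
  ⟨fun q => (H (q.1, ⟨σ.1 q.2, σ.2.2 _⟩) : X),
    continuous_subtype_val.comp (H.continuous.comp (continuous_fst.prodMk
      ((σ.1.continuous.comp continuous_snd).subtype_mk _)))⟩

theorem hom_zero {n : ℕ} (σ : Sm U n V) : (hom H σ).at 0 = σ.1 := by
  ext x
  change (H (0, ⟨σ.1 x, σ.2.2 _⟩) : X) = σ.1 x
  rw [H.apply_zero]
  rfl

theorem hom_one {n : ℕ} (σ : Sm U n V) :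
    (hom H σ).at 1 = ContinuousMap.const _ (x0 : X) := by
  ext x
  change (H (1, ⟨σ.1 x, σ.2.2 _⟩) : X) = x0
  rw [H.apply_one]
  rfl

theorem hom_fc {n : ℕ} (σ : Sm U (n + 1) V) (i : Fin (n + 2)) :
    (hom H σ).fc i = hom H ⟨_, Sm.face σ.2 i⟩ := rfl

theorem D_mem {i : ι} (hV : V ≤ U i) {n : ℕ} (σ : Sm U n V) :
    PR.op.D X n (hom H σ) ∈ Finsupp.supported ℤ ℤ (Sm U (n + 1) V) := by
  have h1 := PR.op.nat (I × Dl (n + 1)) X (hom H σ) n (ContinuousMap.id _)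
  rw [ContinuousMap.comp_id] at h1
  have h2 : PR.op.D X n (hom H σ) ∈ P246.T.Con (V : Set X) (n + 1) := by
    rw [← h1]
    refine push_mem (A := univ) (fun q _ => (H (q.1, ⟨σ.1 q.2, σ.2.2 _⟩)).2) ?_
    rw [P246.T.Con, Finsupp.mem_supported]
    intro _ _ _
    trivial
  refine Finsupp.supported_mono ?_ h2
  exact fun τ hτ => ⟨⟨i, fun x => hV (hτ x)⟩, hτ⟩

theorem lin_bd_D {i : ι} (hV : V ≤ U i) {n : ℕ} (ω : Sm U n V → ℝ) (hω : dS ω = 0)
    (σ : Sm U n V) : lin (ext0 ω) (bd n (PR.op.D X n (hom H σ))) = 0 := by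
  rw [lin_bd]
  refine lin_zero_of (fun τ hτ => ?_) (D_mem H hV σ)
  rw [cob_ext0 ω ⟨τ, hτ⟩, hω]
  rfl

theorem const_mem {i : ι} (hV : V ≤ U i) (n : ℕ) (x : V) :
    ContinuousMap.const (Dl (n + 1)) (x : X) ∈ Sm U n V :=
  ⟨⟨i, fun _ => hV x.2⟩, fun _ => x.2⟩

/-- The primitive of a small cocycle, up to a constant. -/
theorem prim {i : ι} (hV : V ≤ U i) {n : ℕ} (ω : Sm U (n + 1) V → ℝ) (hω : dS ω = 0)
    (σ : Sm U (n + 1) V) :
    ω σ = ω ⟨_, const_mem hV (n + 1) x0⟩ -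
      dS (fun τ : Sm U n V => lin (ext0 ω) (PR.op.D X n (hom H τ))) σ := by
  have h := lin_bd_D H hV ω hω σ
  rw [PR.op.bd_succ, map_sub, map_sub, lin_one, lin_one, hom_one, hom_zero, map_sum,
    ext0_apply ω σ.2, ext0_apply ω (const_mem hV (n + 1) x0)] at h
  rw [dS_apply]
  have h2 : ∑ j : Fin (n + 2), lin (ext0 ω) ((-1 : ℤ) ^ (j : ℕ) • PR.op.D X n ((hom H σ).fc j)) =
      ∑ j : Fin (n + 2), (-1 : ℝ) ^ (j : ℕ) *
        lin (ext0 ω) (PR.op.D X n (hom H ⟨_, Sm.face σ.2 j⟩)) := by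
    refine Finset.sum_congr rfl fun j _ => ?_
    rw [map_smul, hom_fc, zsmul_eq_mul]
    push_cast
    rfl
  rw [h2] at h
  linarith

end Contr

theorem exists_htpy (V : Opens X) [ContractibleSpace V] :
    ∃ x0 : V, Nonempty (ContinuousMap.Homotopy (ContinuousMap.id V) (ContinuousMap.const V x0)) :=
  id_nullhomotopic V

/-- `V` is empty or contractible. -/
def EC (V : Opens X) : Prop := V = ⊥ ∨ ContractibleSpace V

theorem subsingleton_bot (k : ℕ) : Subsingleton (Sm U k ⊥ → ℝ) :=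
  ⟨fun _ _ => funext fun σ => absurd (σ.2.2 (stdSimplex.vertex 0)) (by simp)⟩

theorem singPre_P0 {V : Opens X} {i : ι} (hV : V ≤ U i) (h : EC V) : (singPre U).P0 V := by
  rcases h with rfl | h
  · exact fun f _ => ⟨0, (subsingleton_bot 0).elim _ _⟩
  obtain ⟨x0, ⟨H⟩⟩ := exists_htpy V
  intro (f : Sm U 0 V → ℝ) (hf : dS f = 0)
  refine ⟨f ⟨_, const_mem hV 0 x0⟩, funext fun σ => ?_⟩
  have h1 := lin_bd_D H hV f hf σ
  rw [PR.op.bd_zero, map_sub, lin_one, lin_one, hom_one, hom_zero, ext0_apply f σ.2,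
    ext0_apply f (const_mem hV 0 x0)] at h1
  exact (sub_eq_zero.1 h1).symm

theorem singPre_P1 {V : Opens X} {i : ι} (hV : V ≤ U i) (h : EC V) : (singPre U).Pk 0 V := by
  rcases h with rfl | h
  · exact fun f _ => ⟨0, (subsingleton_bot 1).elim _ _⟩
  obtain ⟨x0, ⟨H⟩⟩ := exists_htpy V
  intro (ω : Sm U 1 V → ℝ) (hω : dS ω = 0)
  have h0 : ω ⟨_, const_mem hV 1 x0⟩ = 0 := by
    have h1 : dS (U := U) ω ⟨_, const_mem hV 2 x0⟩ = 0 := congrFun hω _
    rw [dS_apply, Fin.sum_univ_three] at h1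
    have h2 : ω ⟨_, const_mem hV 1 x0⟩ - ω ⟨_, const_mem hV 1 x0⟩ +
        ω ⟨_, const_mem hV 1 x0⟩ = 0 := by
      rw [← h1]
      simp only [Fin.val_zero, Fin.val_one, Fin.val_two, pow_zero, pow_one, one_mul, neg_mul,
        even_two, Even.neg_pow, one_pow, sub_eq_add_neg]
      rfl
    linarith
  refine ⟨-(fun τ : Sm U 0 V => lin (ext0 ω) (PR.op.D X 0 (hom H τ))), ?_⟩
  change dS (U := U) _ = ω
  rw [map_neg]
  funext σ
  rw [prim H hV ω hω σ, h0, zero_sub]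
  rfl

theorem singPre_P2 {V : Opens X} {i : ι} (hV : V ≤ U i) (h : EC V) : (singPre U).Pk 1 V := by
  rcases h with rfl | h
  · exact fun f _ => ⟨0, (subsingleton_bot 2).elim _ _⟩
  obtain ⟨x0, ⟨H⟩⟩ := exists_htpy V
  intro (ω : Sm U 2 V → ℝ) (hω : dS ω = 0)
  refine ⟨(fun _ : Sm U 1 V => ω ⟨_, const_mem hV 2 x0⟩) -
    (fun τ : Sm U 1 V => lin (ext0 ω) (PR.op.D X 1 (hom H τ))), ?_⟩
  change dS (U := U) _ = ω
  rw [map_sub]
  funext σ
  rw [prim H hV ω hω σ, Pi.sub_apply, dS_apply, Fin.sum_univ_three]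
  simp

/-- The small cochains are good for a cover with empty or contractible intersections. -/
theorem singPre_good (hc : ∀ x, ∃ j, x ∈ U j) (h1 : ∀ i, EC (U i)) (h2 : ∀ i j, EC (U i ⊓ U j))
    (h3 : ∀ i j k, EC (U i ⊓ U j ⊓ U k)) : (singPre U).Good where
  bot := subsingleton_bot
  inj := by
    intro V hV r s hrs
    obtain ⟨x, hx⟩ : (V : Set X).Nonempty := by
      rw [Set.nonempty_iff_ne_empty]
      intro h
      exact hV (Opens.ext h)
    obtain ⟨j, hj⟩ := hc x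
    exact congrFun hrs ⟨ContinuousMap.const _ x, ⟨j, fun _ => hj⟩, fun _ => hx⟩
  p0_1 i := singPre_P0 le_rfl (h1 i)
  p0_2 i j := singPre_P0 inf_le_left (h2 i j)
  p0_3 i j k := singPre_P0 (inf_le_left.trans inf_le_left) (h3 i j k)
  p1_1 i := singPre_P1 le_rfl (h1 i)
  p1_2 i j := singPre_P1 inf_le_left (h2 i j)
  p2_1 i := singPre_P2 le_rfl (h1 i)

end Vale.Agent.P267W33
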