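import Vale.Agent.P267W33.Sing

/-!
# The cohomology of small cochains is singular cohomology
-/

namespace Vale.Agent.P267W33

open TopologicalSpace Set Vale.Agent.P246.T Vale.Agent.P267.H175

variable {X : Type} [TopologicalSpace X] {ι : Type} {U : ι → Opens X}

variable (U) in
/-- The small chains. -/
abbrev SmC (n : ℕ) : Submodule ℤ (Ch n X) := Finsupp.supported ℤ ℤ (Sm U n ⊤)

theorem push_small {M : Type} [TopologicalSpace M] {n : ℕ} {j : ι} (f : C(M, X))
    (hf : ∀ x, f x ∈ U j) (c : Ch n M) : push f n c ∈ SmC U n := by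
  have h : push f n c ∈ P246.T.Con (U j : Set X) n := by
    refine push_mem (A := univ) (fun x _ => hf x) ?_
    rw [P246.T.Con, Finsupp.mem_supported]
    intro _ _ _
    trivial
  refine Finsupp.supported_mono ?_ h
  exact fun τ hτ => ⟨⟨j, hτ⟩, fun _ => trivial⟩

theorem single_push {n : ℕ} (σ : C(Dl (n + 1), X)) :
    (Finsupp.single σ 1 : Ch n X) = push σ n (Finsupp.single (ContinuousMap.id _) 1) := by
  rw [push_single, ContinuousMap.comp_id]

theorem t_small (S : SdOp) {n : ℕ} {c : Ch n X} (hc : c ∈ SmC U n) :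
    S.t X n c ∈ SmC U (n + 1) := by
  refine SD.supp_map (S.t X n) ?_ hc
  rintro σ ⟨⟨j, hj⟩, -⟩
  rw [single_push, ← S.t_nat]
  exact push_small σ hj _

theorem sd_small {n : ℕ} {c : Ch n X} (hc : c ∈ SmC U n) : SD.sd n X c ∈ SmC U n := by
  refine SD.supp_map (SD.sd n X) ?_ hc
  rintro σ ⟨⟨j, hj⟩, -⟩
  rw [SD.sd_single]
  exact push_small σ hj _

theorem sd_iter_small {n : ℕ} {c : Ch n X} (hc : c ∈ SmC U n) (m : ℕ) :
    (SD.sd n X)^[m] c ∈ SmC U n := by
  induction m with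
  | zero => exact hc
  | succ m ih =>
    rw [Function.iterate_succ_apply']
    exact sd_small ih

theorem small_single (hc : ∀ x, ∃ j, x ∈ U j) {n : ℕ} (σ : C(Dl (n + 1), X)) :
    ∃ m : ℕ, (SD.sd n X)^[m] (Finsupp.single σ 1) ∈ SmC U n := by
  have hc1 : ∀ j, IsOpen (σ ⁻¹' (U j : Set X)) := fun j => (U j).isOpen.preimage σ.continuous
  have hc2 : (univ : Set (Dl (n + 1))) ⊆ ⋃ j, σ ⁻¹' (U j : Set X) := fun x _ =>
    mem_iUnion.2 (hc (σ x))
  obtain ⟨δ, hδ, hδ'⟩ := lebesgue_number_lemma_of_metric isCompact_univ hc1 hc2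
  obtain ⟨m, hm⟩ := exists_pow_lt_of_lt_one hδ
    (show (n : ℝ) / (n + 1) < 1 by rw [div_lt_one (by positivity)]; linarith)
  refine ⟨m, ?_⟩
  rw [SD.single_eq, SD.sd_real_iter]
  have := SD.supp_map ((push σ n).comp (SD.real n n)) (T := SmC U n) ?_ (SD.sd_iter_small n m)
  · exact this
  intro w hw
  rw [LinearMap.comp_apply, SD.real_single, push_single]
  obtain ⟨b, hb⟩ := hδ' (w 0) (mem_univ _)
  have hx : ∀ x, SD.aff w x ∈ σ ⁻¹' (U b : Set X) := by
    intro x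
    apply hb
    rw [Metric.mem_ball]
    refine lt_of_le_of_lt ?_ hm
    rw [Subtype.dist_eq, dist_pi_le_iff (by positivity)]
    intro a
    rw [Real.dist_eq]
    exact SD.avg_le x _ _ fun i => hw i 0 a
  exact Finsupp.single_mem_supported ℤ _ ⟨⟨b, hx⟩, fun _ => trivial⟩

theorem small_chain (hc : ∀ x, ∃ j, x ∈ U j) {n : ℕ} (c : Ch n X) :
    ∃ m : ℕ, (SD.sd n X)^[m] c ∈ SmC U n := by
  induction c using Finsupp.induction_linear with
  | zero => exact ⟨0, zero_mem _⟩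
  | add a b ha hb =>
    obtain ⟨m, hm⟩ := ha
    obtain ⟨m', hm'⟩ := hb
    refine ⟨m + m', ?_⟩
    rw [SD.iter_add]
    apply add_mem
    · rw [add_comm m m', Function.iterate_add_apply]
      exact sd_iter_small hm m'
    · rw [Function.iterate_add_apply]
      exact sd_iter_small hm' m
  | single σ a =>
    obtain ⟨m, hm⟩ := small_single hc σ
    refine ⟨m, ?_⟩
    have : Finsupp.single σ a = a • Finsupp.single σ (1 : ℤ) := by
      rw [Finsupp.smul_single, smul_eq_mul, mul_one]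
    rw [this, SD.iter_smul]
    exact Submodule.smul_mem _ _ hm

/-- The complex of chains modulo small chains is acyclic. -/
theorem quot_acyclic (hc : ∀ x, ∃ j, x ∈ U j) {n : ℕ} (c : Ch (n + 1) X)
    (h : bd n c ∈ SmC U n) : ∃ b : Ch (n + 2) X, c - bd (n + 1) b ∈ SmC U (n + 1) := by
  obtain ⟨m, hm⟩ := small_chain hc c
  refine ⟨(SD.iter m).t X (n + 1) c, ?_⟩
  rw [(SD.iter m).t_succ, sub_sub, sub_sub_cancel, SD.iter_s]
  exact add_mem hm (t_small _ h)

/-- Homomorphisms to `ℝ` extend. -/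
theorem ext_of_ker {A B : Type} [AddCommGroup A] [AddCommGroup B] (β : A →ₗ[ℤ] B)
    (c : A →ₗ[ℤ] ℝ) (h : LinearMap.ker β ≤ LinearMap.ker c) :
    ∃ b : B →ₗ[ℤ] ℝ, ∀ x, b (β x) = c x := by
  obtain ⟨b, hb⟩ := (Module.Baer.of_divisible ℝ).extension_property
    ((LinearMap.ker β).liftQ β le_rfl)
    (by rw [← LinearMap.ker_eq_bot]; exact Submodule.ker_liftQ_eq_bot _ _ _ le_rfl)
    ((LinearMap.ker β).liftQ c h)
  exact ⟨b, fun x => LinearMap.congr_fun hb (Submodule.Quotient.mk x)⟩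

/-- The complex of the cochains which vanish on small simplices is acyclic. -/
theorem ker_acyclic (hc : ∀ x, ∃ j, x ∈ U j) {n : ℕ} (c : Cc (n + 1) X)
    (h0 : rs (U := U) (V := ⊤) c = 0) (hd : cob (n + 1) c = 0) :
    ∃ b : Cc n X, rs (U := U) (V := ⊤) b = 0 ∧ cob n b = c := by
  obtain ⟨b, hb⟩ := ext_of_ker ((SmC U n).mkQ.comp (bd n)) (lin c) (by
    intro x hx
    rw [LinearMap.mem_ker, LinearMap.comp_apply, Submodule.mkQ_apply,
      Submodule.Quotient.mk_eq_zero] at hx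
    obtain ⟨y, hy⟩ := quot_acyclic hc x hx
    have h1 : lin c (x - bd (n + 1) y) = 0 :=
      lin_zero_of (fun σ hσ => congrFun h0 ⟨σ, hσ⟩) hy
    rw [map_sub, lin_bd, hd] at h1
    rw [LinearMap.mem_ker, sub_eq_zero.1 h1]
    exact lin_zero_of (S := univ) (fun _ _ => rfl) (by simp))
  have hl : lin (fun σ => b ((SmC U n).mkQ (Finsupp.single σ 1))) = b.comp (SmC U n).mkQ := by
    apply SD.lin_ext
    intro σ
    rw [lin_one]
    rfl
  refine ⟨fun σ => b ((SmC U n).mkQ (Finsupp.single σ 1)), funext fun σ => ?_, funext fun σ => ?_⟩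
  · change b ((SmC U n).mkQ (Finsupp.single σ.1 1)) = 0
    rw [Submodule.mkQ_apply, (Submodule.Quotient.mk_eq_zero _).2
      (Finsupp.single_mem_supported ℤ _ σ.2), map_zero]
  · rw [← lin_one (cob n _), ← lin_bd, hl, ← lin_one c σ, ← hb]
    rfl

variable (U) in
/-- The class of a singular cocycle in the cohomology of the small cochains. -/
noncomputable def toCoh (k : ℕ) :
    LinearMap.ker (cob (X := X) (k + 1)) →ₗ[ℝ] (singPre U).Coh k :=
  (Submodule.mkQ _).comp (LinearMap.codRestrict _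
    ((rs (U := U) (V := ⊤)).comp (LinearMap.ker (cob (X := X) (k + 1))).subtype) fun z => by
      change dS (rs (U := U) (V := ⊤) z.1) = 0
      rw [dS_rs, LinearMap.mem_ker.1 z.2, map_zero])

theorem exists_cocycle (hc : ∀ x, ∃ j, x ∈ U j) {k : ℕ} (y : Sm U (k + 1) ⊤ → ℝ) (hy : dS y = 0) :
    ∃ z : Cc (k + 1) X, cob (k + 1) z = 0 ∧ rs z = y := by
  obtain ⟨b, hb, hb'⟩ := ker_acyclic hc (cob (k + 1) (ext0 y))
    (by rw [← dS_rs, rs_ext0, hy]) (cob_cob _)
  exact ⟨ext0 y - b, by rw [map_sub, hb', sub_self], by rw [map_sub, hb, rs_ext0, sub_zero]⟩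

theorem exists_prim (hc : ∀ x, ∃ j, x ∈ U j) {k : ℕ} (z : Cc (k + 1) X) (hz : cob (k + 1) z = 0)
    (η : Sm U k ⊤ → ℝ) (hη : dS η = rs z) : ∃ b, cob k b = z := by
  obtain ⟨b, -, hb⟩ := ker_acyclic hc (z - cob k (ext0 η))
    (by rw [map_sub, ← dS_rs, rs_ext0, hη, sub_self]) (by rw [map_sub, cob_cob, hz, sub_zero])
  exact ⟨b + ext0 η, by rw [map_add, hb, sub_add_cancel]⟩

theorem toCoh_surjective (hc : ∀ x, ∃ j, x ∈ U j) (k : ℕ) : Function.Surjective (toCoh U k) := by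
  intro x
  obtain ⟨⟨y, hy⟩, rfl⟩ := Submodule.Quotient.mk_surjective _ x
  obtain ⟨z, hz, hz'⟩ := exists_cocycle hc y hy
  exact ⟨⟨z, hz⟩, congrArg Submodule.Quotient.mk (Subtype.ext hz')⟩

theorem toCoh_eq_zero (hc : ∀ x, ∃ j, x ∈ U j) (k : ℕ) (z : LinearMap.ker (cob (X := X) (k + 1))) :
    toCoh U k z = 0 ↔ ∃ b, cob k b = z.1 := by
  refine ((singPre U).cls_eq_zero _).trans ⟨?_, ?_⟩
  · rintro ⟨η, hη⟩
    exact exists_prim hc z.1 z.2 η hη
  · rintro ⟨b, hb⟩
    refine ⟨rs (U := U) (V := ⊤) b, ?_⟩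
    change dS (rs (U := U) (V := ⊤) b) = rs z.1
    rw [dS_rs, hb]

/-- Two quotients of a vector space with the same kernel are isomorphic. -/
theorem equiv_of_ker {Z A B : Type} [AddCommGroup Z] [AddCommGroup A] [AddCommGroup B]
    [Module ℝ Z] [Module ℝ A] [Module ℝ B] (f : Z →ₗ[ℝ] A) (g : Z →ₗ[ℝ] B)
    (hf : Function.Surjective f) (hg : Function.Surjective g) (h : ∀ z, f z = 0 ↔ g z = 0) :
    Nonempty (A ≃ₗ[ℝ] B) :=
  ⟨(f.quotKerEquivOfSurjective hf).symm.trans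
    ((Submodule.quotEquivOfEq _ _ (Submodule.ext h)).trans (g.quotKerEquivOfSurjective hg))⟩

/-- Good complexes for the same cover have the same cohomology in the degrees one and two. -/
theorem coh_equiv {F G : FormPre.{0, 0, 0} X U} (hF : F.Good) (hG : G.Good) {k : ℕ} (hk : k ≤ 1) :
    Nonempty (F.Coh k ≃ₗ[ℝ] G.Coh k) := by
  obtain rfl | rfl : k = 0 ∨ k = 1 := by omega
  · exact equiv_of_ker hF.cl1 hG.cl1 hF.cl1_surjective hG.cl1_surjective fun z =>
      (hF.cl1_eq_zero_iff z).trans (hG.cl1_eq_zero_iff z).symm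
  · exact equiv_of_ker hF.cl2 hG.cl2 hF.cl2_surjective hG.cl2_surjective fun z =>
      (hF.cl2_eq_zero_iff z).trans (hG.cl2_eq_zero_iff z).symm

end Vale.Agent.P267W33
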