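import Vale.Agent.P267W33.Defs

/-!
# P267: smooth rational curves and the degree of their normal bundle
-/

open scoped Manifold

namespace Vale.Agent.P267W33

open Vale.Agent.P267.Final

variable {X : Type} [TopologicalSpace X] [ChartedSpace (ℂ × ℂ) X]

/-- The value `d(f x)(v)` of the differential at the point `y` of the local equation `f x` of `D` on
the tangent vector `v`. At a point `y` of a smooth curve `D` its kernel is the tangent line of `D`,
so it is a coordinate on the fibre `T_y X / T_y D` of the normal bundle of `D`. -/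
noncomputable def nrm (D : EffDiv X) (x y : X) (v : ℂ × ℂ) : ℂ :=
  mfderiv 𝓘(ℂ, ℂ × ℂ) 𝓘(ℂ) (D.f x) y v

/-- `D` is a smooth curve (its local equations have nonzero differential at their zeros) and `φ` is
a holomorphic bijection from `ℙ¹` onto it. -/
def IsParam (D : EffDiv X) (φ : P1Map X) : Prop :=
  (∀ x, ∀ y ∈ D.U x, D.f x y = 0 → ∃ v, nrm D x y v ≠ 0) ∧
    Function.Injective φ.f₀ ∧ φ.f₁ 0 ∉ Set.range φ.f₀ ∧ D.supp = φ.image

/-- The classes of the tangent vectors `s z` of `X` at the points `f z` form a holomorphic section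
without zeros of the normal bundle of `D` along `f`. -/
def IsFrame (D : EffDiv X) (f : ℂ → X) (s : ℂ → ℂ × ℂ) : Prop :=
  ∀ x, DifferentiableOn ℂ (fun z => nrm D x (f z) (s z)) (f ⁻¹' D.U x) ∧
    ∀ z, f z ∈ D.U x → nrm D x (f z) (s z) ≠ 0

/-- `D` is a smooth rational curve of self-intersection number `k`: its normal bundle is `𝒪(k)`,
that is, it has frames `s₀` on `ℂ` and `s₁` around infinity such that `s₀(z) - z^(-k) s₁(1/z)` is
tangent to `D`. -/
def IsRatCurve (D : EffDiv X) (k : ℤ) : Prop :=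
  ∃ φ : P1Map X, IsParam D φ ∧ ∃ s₀ s₁ : ℂ → ℂ × ℂ, IsFrame D φ.f₀ s₀ ∧ IsFrame D φ.f₁ s₁ ∧
    ∀ z : ℂ, z ≠ 0 → nrm D (φ.f₀ z) (φ.f₀ z) (s₀ z - z ^ (-k) • s₁ z⁻¹) = 0

end Vale.Agent.P267W33
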