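import Vale.Agent.P267W33.Stmt
import Vale.Agent.P267W33.Normal
import Vale.Agent.P267W33.Main

/-!
# The normal bundle of a smooth rational curve and the final theorem
-/

open scoped Manifold ContDiff Topology
open Set Filter Vale.Agent.P272.K Vale.Agent.P267

namespace Vale.Agent.P267W33

variable {X : Type} [TopologicalSpace X] [ChartedSpace (ℂ × ℂ) X]

attribute [local instance] Final.cs

/-- The same divisor. -/
def newDiv (D : Final.EffDiv X) : P267.EffDiv X where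
  U := D.U
  f := D.f
  isOpen := D.isOpen
  mem := D.mem
  holo x := (D.holo x).comp Final.mdiff_id_symm.mdifferentiableOn fun _ hx => hx
  ne := D.ne
  change x x' := by
    obtain ⟨g, hg, h⟩ := D.change x x'
    exact ⟨g, hg.comp Final.mdiff_id_symm.mdifferentiableOn fun _ hx => hx, h⟩

/-- The same map. -/
def newP1 (φ : Final.P1Map X) : P267.P1Map X where
  f₀ := φ.f₀
  f₁ := φ.f₁
  holo₀ := Final.mdiff_id.comp φ.holo₀
  holo₁ := Final.mdiff_id.comp φ.holo₁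
  glue := φ.glue

theorem nrm_sub (D : Final.EffDiv X) (x y : X) (v w : ℂ × ℂ) (c : ℂ) :
    nrm D x y (v - c • w) = nrm D x y v - c * nrm D x y w := by
  have h : ∀ L : (ℂ × ℂ) →L[ℂ] ℂ, L (v - c • w) = L v - c * L w := fun L => by
    rw [map_sub, map_smul, smul_eq_mul]
  exact h (mfderiv 𝓘(ℂ, ℂ × ℂ) 𝓘(ℂ) (D.f x) y)

theorem nrm_smul (D : Final.EffDiv X) (x y : X) (w : ℂ × ℂ) (c : ℂ) :
    nrm D x y (c • w) = c * nrm D x y w := by
  have h : ∀ L : (ℂ × ℂ) →L[ℂ] ℂ, L (c • w) = c * L w := fun L => by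
    rw [map_smul, smul_eq_mul]
  exact h (mfderiv 𝓘(ℂ, ℂ × ℂ) 𝓘(ℂ) (D.f x) y)

theorem zero_of_supp (D : Final.EffDiv X) {x y : X} (hy : y ∈ D.U x) (h : y ∈ D.supp) :
    D.f x y = 0 := by
  obtain ⟨g, -, hg⟩ := D.change x y
  rw [(hg y ⟨hy, D.mem y⟩).2, show D.f y y = 0 from h, mul_zero]

theorem nrm_change (D : Final.EffDiv X) {x x' y : X} (hy : y ∈ D.U x) (hy' : y ∈ D.U x')
    (h : y ∈ D.supp) (v : ℂ × ℂ) :
    nrm D x y v = H451.trf (newDiv D) x x' y * nrm D x' y v := by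
  have hn := ((D.isOpen x).inter (D.isOpen x')).mem_nhds ⟨hy, hy'⟩
  have hg : MDifferentiableAt 𝓘(ℂ, ℂ × ℂ) 𝓘(ℂ) (H451.trf (newDiv D) x x') y :=
    (Final.mdiffOn_fun ((newDiv D).change x x').choose_spec.1).mdifferentiableAt hn
  have hf : MDifferentiableAt 𝓘(ℂ, ℂ × ℂ) 𝓘(ℂ) (D.f x') y :=
    (D.holo x').mdifferentiableAt ((D.isOpen x').mem_nhds hy')
  have h1 : D.f x =ᶠ[𝓝 y] H451.trf (newDiv D) x x' * D.f x' := by
    filter_upwards [hn] with z hz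
    exact H451.trf_eq (newDiv D) hz.1 hz.2
  have h2 := ((hg.hasMFDerivAt.mul hf.hasMFDerivAt).congr_of_eventuallyEq h1).mfderiv
  have h3 : nrm D x y v = H451.trf (newDiv D) x x' y * nrm D x' y v + D.f x' y *
      (show ℂ from mfderiv 𝓘(ℂ, ℂ × ℂ) 𝓘(ℂ) (H451.trf (newDiv D) x x') y v) := by
    unfold nrm
    rw [h2]
    rfl
  rw [h3, zero_of_supp D hy' h, zero_mul, add_zero]

theorem red_iff (D : Final.EffDiv X) {x y : X} (hy : y ∈ D.U x) :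
    (∃ v, nrm D x y v ≠ 0) ↔ mfderiv 𝓘(ℂ, Cm 2) 𝓘(ℂ) (D.f x) y ≠ 0 := by
  have hf : MDifferentiableAt 𝓘(ℂ, ℂ × ℂ) 𝓘(ℂ) (D.f x) y :=
    (D.holo x).mdifferentiableAt ((D.isOpen x).mem_nhds hy)
  have h1 : mfderiv 𝓘(ℂ, Cm 2) 𝓘(ℂ) (D.f x) y = _ :=
    (HasMFDerivAt.comp y (g := D.f x) hf.hasMFDerivAt (Final.hasMFDerivAt_id_symm y)).mfderiv
  have h2 : ∀ w : Cm 2, mfderiv 𝓘(ℂ, Cm 2) 𝓘(ℂ) (D.f x) y w = nrm D x y (Final.T.symm w) :=
    fun w => by rw [h1]; rfl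
  constructor
  · rintro ⟨v, hv⟩ h0
    apply hv
    rw [← Final.T.symm_apply_apply v, ← h2, h0]
    rfl
  · intro h0
    by_contra hc
    push Not at hc
    exact h0 (ContinuousLinearMap.ext fun w => (h2 w).trans (hc _))

theorem cf_of_isFrame {D : Final.EffDiv X} {f : ℂ → X} (hf : ∀ z, f z ∈ D.supp) {s : ℂ → ℂ × ℂ}
    (hs : IsFrame D f s) : CF (newDiv D) f fun x z => nrm D x (f z) (s z) :=
  ⟨fun x => (hs x).1, fun x => (hs x).2, fun _ _ z hz hz' => nrm_change D hz hz' (hf z) _⟩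

theorem isFrame_of_cf {D : Final.EffDiv X}
    (hred : ∀ x, ∀ y ∈ D.U x, D.f x y = 0 → ∃ v, nrm D x y v ≠ 0) {f : ℂ → X}
    (hf : ∀ z, f z ∈ D.supp) {c : X → ℂ → ℂ} (hc : CF (newDiv D) f c) :
    ∃ s, IsFrame D f s ∧ ∀ x z, f z ∈ D.U x → nrm D x (f z) (s z) = c x z := by
  choose v hv using fun z => hred (f z) (f z) (D.mem _) (hf z)
  have key : ∀ x z, f z ∈ D.U x →
      nrm D x (f z) ((c (f z) z / nrm D (f z) (f z) (v z)) • v z) = c x z := by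
    intro x z hz
    rw [nrm_change D hz (D.mem _) (hf z), nrm_smul, div_mul_cancel₀ _ (hv z),
      hc.chg x (f z) z hz (D.mem _)]
  refine ⟨fun z => (c (f z) z / nrm D (f z) (f z) (v z)) • v z, fun x => ⟨?_, fun z hz => ?_⟩, key⟩
  · exact (hc.hol x).congr fun z hz => key x z hz
  · rw [key x z hz]
    exact hc.ne x z hz

theorem IsParam.mem₀ {D : Final.EffDiv X} {φ : Final.P1Map X} (h : IsParam D φ) (z : ℂ) :
    φ.f₀ z ∈ D.supp := by
  rw [h.2.2.2]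
  exact Or.inl ⟨z, rfl⟩

theorem IsParam.mem₁ {D : Final.EffDiv X} {φ : Final.P1Map X} (h : IsParam D φ) (z : ℂ) :
    φ.f₁ z ∈ D.supp := by
  rw [h.2.2.2]
  rcases eq_or_ne z 0 with rfl | hz
  · exact Or.inr rfl
  · exact Or.inl ⟨z⁻¹, by rw [φ.glue _ (inv_ne_zero hz), inv_inv]⟩

variable [IsManifold 𝓘(ℂ, ℂ × ℂ) ω X] [T2Space X] [CompactSpace X]

theorem selfInt_of_ratCurve {D : Final.EffDiv X} {k : ℤ} (h : IsRatCurve D k) :
    (newDiv D).SelfInt k := by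
  have h1 : IsManifold 𝓘(ℂ, Cm 2) ω X := Final.isManifold_cs
  obtain ⟨φ, hp, s₀, s₁, h₀, h₁, hg⟩ := h
  refine selfInt_of_cf (D := newDiv D) (φ := newP1 φ) (fun x y hy h0 => (red_iff D hy).1 (hp.1 x y hy h0))
    hp.2.1 hp.2.2.2 (cf_of_isFrame hp.mem₀ h₀) (cf_of_isFrame hp.mem₁ h₁) fun z hz => ?_
  have h2 := hg z hz
  rw [nrm_sub, sub_eq_zero] at h2
  change nrm D (φ.f₀ z) (φ.f₀ z) (s₀ z) = z ^ (-k) * nrm D (φ.f₀ z) (φ.f₁ z⁻¹) (s₁ z⁻¹)
  rw [h2, ← φ.glue z hz]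

theorem exists_ratCurve {D : Final.EffDiv X} {φ : Final.P1Map X} (hp : IsParam D φ) :
    ∃ k, IsRatCurve D k := by
  have h1 : IsManifold 𝓘(ℂ, Cm 2) ω X := Final.isManifold_cs
  obtain ⟨k, c₀, c₁, h₀, h₁, hg⟩ := exists_cf (newDiv D) (newP1 φ)
  obtain ⟨s₀, hs₀, e₀⟩ := isFrame_of_cf hp.1 hp.mem₀ h₀
  obtain ⟨s₁, hs₁, e₁⟩ := isFrame_of_cf hp.1 hp.mem₁ h₁
  refine ⟨k, φ, hp, s₀, s₁, hs₀, hs₁, fun z hz => ?_⟩
  have h2 := e₁ (φ.f₀ z) z⁻¹ (by rw [← φ.glue z hz]; exact D.mem _)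
  rw [← φ.glue z hz] at h2
  rw [nrm_sub, e₀ _ z (D.mem _), h2, sub_eq_zero]
  exact hg z hz

theorem existsUnique_ratCurve {D : Final.EffDiv X} {φ : Final.P1Map X} (hp : IsParam D φ) :
    ∃! k, IsRatCurve D k := by
  have h1 : IsManifold 𝓘(ℂ, Cm 2) ω X := Final.isManifold_cs
  obtain ⟨k, hk⟩ := exists_ratCurve hp
  refine ⟨k, hk, fun m hm => ?_⟩
  exact_mod_cast H451.selfInt_unique (selfInt_of_ratCurve hm) (selfInt_of_ratCurve hk)

theorem minimal_of (h : ¬ ∃ D : Final.EffDiv X, IsRatCurve D (-1)) : P267.Minimal X := by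
  have h1 : IsManifold 𝓘(ℂ, Cm 2) ω X := Final.isManifold_cs
  rintro ⟨D, ⟨hred, φ, h2, h3, h4⟩, h5⟩
  have hp : IsParam (Final.oldDiv D) (Final.oldP1 φ) :=
    ⟨fun x y hy h0 => (red_iff (Final.oldDiv D) hy).2 (hred x y hy h0), h2, h3, h4⟩
  obtain ⟨k, hk⟩ := exists_ratCurve hp
  have h6 : D.SelfInt k := selfInt_of_ratCurve hk
  obtain rfl : k = -1 := by exact_mod_cast H451.selfInt_unique h6 h5
  exact h ⟨_, hk⟩

/-- The conjecture with singular Betti numbers and normal bundles. -/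
theorem gss_literal (h : P267.GSSConjecture) [ConnectedSpace X] (h1 : betti X 1 = 1)
    (hk : Final.KodairaNegInf X) (hm : ¬ ∃ D : Final.EffDiv X, IsRatCurve D (-1))
    (h2 : 0 < betti X 2) : Final.HasGSS X := by
  have h0 : IsManifold 𝓘(ℂ, Cm 2) ω X := Final.isManifold_cs
  obtain ⟨⟨n, hn⟩, h3⟩ := deRham (X := X) (k := 1) le_rfl
  have h4 : (0 : Cardinal) < n := hn ▸ h2
  exact Final.hasGSS_old (h X n
    ⟨Final.betti_new (((deRham (X := X) (k := 0) zero_le_one).2 1).1 (by simpa using h1)),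
      Final.betti_new ((h3 n).1 hn), by exact_mod_cast h4, Final.kod_new hk, minimal_of hm⟩)

theorem betti_finite : betti X 1 < Cardinal.aleph0 ∧ betti X 2 < Cardinal.aleph0 :=
  ⟨Cardinal.lt_aleph0.2 (deRham (X := X) (k := 0) zero_le_one).1,
    Cardinal.lt_aleph0.2 (deRham (X := X) (k := 1) le_rfl).1⟩

end Vale.Agent.P267W33
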